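import Vale.Agent.P272.K.AMP.BIG.H420.Wi

/-!
# AMP-BIG, block DDB: Steps 5 and 6 for a twist which is positive outside a set of small volume
-/

open scoped Manifold ContDiff ComplexOrder Topology
open Complex Set Filter MeasureTheory

set_option linter.all false

noncomputable section

namespace Vale.Agent.P272.K.AMP.BIG

open INT (IsDensity intX part Part)
open DD
open Main

/-- the final arithmetic -/
lemma arithF {k c Cδ K δ I0 I1 I2 J HH QD G0 : ℝ} (hk : 0 < k) (hδ : δ = k / 4) (hK : 0 ≤ K)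
    (hJ : 0 ≤ J) (k1 : k * I2 - 2 * I1 ≤ QD + c * G0) (k2 : QD + 2 * K * J ≤ δ * I2 + Cδ * HH)
    (k3 : I1 ≤ δ * I2 + δ⁻¹ * I0) (hI0 : I0 ≤ G0) :
    I2 ≤ 4 / k * (2 * δ⁻¹ + c) * G0 + 4 / k * Cδ * HH := by
  have hKJ : 0 ≤ 2 * K * J := by positivity
  have hδ0 : 0 < δ := by rw [hδ]; positivity
  have h1 : k * I2 ≤ 3 * δ * I2 + 2 * (δ⁻¹ * I0) + Cδ * HH + c * G0 := by linarith
  have h2 : k / 4 * I2 ≤ 2 * (δ⁻¹ * I0) + Cδ * HH + c * G0 := by
    rw [hδ] at h1 ⊢
    linarith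
  have h2' : 2 * (δ⁻¹ * I0) ≤ 2 * (δ⁻¹ * G0) := by
    have := mul_le_mul_of_nonneg_left hI0 (inv_pos.2 hδ0).le
    linarith
  have h3 : I2 = 4 / k * (k / 4 * I2) := by field_simp
  rw [h3]
  have h4 : 0 ≤ 4 / k := by positivity
  have := mul_le_mul_of_nonneg_left (h2.trans (by linarith :
    2 * (δ⁻¹ * I0) + Cδ * HH + c * G0 ≤ 2 * (δ⁻¹ * G0) + Cδ * HH + c * G0)) h4
  linarith

/-- Young's inequality for the bad set: `M σ r^{n-2} ≤ r^{n-1} + M^{n-1} σ` -/
lemma young_bad {n : ℕ} (hn : 2 ≤ n) {M σ r : ℝ} (hM : 1 ≤ M) (hσ0 : 0 ≤ σ) (hσ1 : σ ≤ 1)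
    (hr : 0 < r) : M * σ * r ^ (n - 2) ≤ r ^ (n - 1) + M ^ (n - 1) * σ := by
  have hM0 : 0 < M := by linarith
  have e1 : n - 1 = n - 2 + 1 := by omega
  rw [e1, pow_succ, pow_succ]
  rcases le_total (M * σ) r with h | h
  · have h1 : M * σ * r ^ (n - 2) ≤ r * r ^ (n - 2) :=
      mul_le_mul_of_nonneg_right h (by positivity)
    have h2 : 0 ≤ M ^ (n - 2) * M * σ := by positivity
    linarith
  · have h0 : M * σ ≤ M := by nlinarith
    have h1 : r ^ (n - 2) ≤ M ^ (n - 2) := pow_le_pow_left₀ hr.le (h.trans h0) _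
    have h2 : M * σ * r ^ (n - 2) ≤ M * σ * M ^ (n - 2) :=
      mul_le_mul_of_nonneg_left h1 (by positivity)
    have h3 : 0 ≤ r ^ (n - 2) * r := by positivity
    linarith

variable {n : ℕ} {X : Type} [TopologicalSpace X] [ChartedSpace (Cm n) X]
  [IsManifold 𝓘(ℂ, Cm n) ω X] [T2Space X] [CompactSpace X]
  {w h : Chart n X → Cm n → Matrix (Fin n) (Fin n) ℂ}

/-- **Steps 5 and 6 for metrics with `Ric(g) ≥ -g + k (1 - σ) w`**, if `HSC(h) ≤ 0`, with a constant
which depends only on `k`, as soon as the volume `∫ σ dv_g` is small compared with a bound `Ct` of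
`tr_g w`. -/
theorem ddMainF (hn : 2 ≤ n) (hw : IsKahler w) (hh : IsHermitian h) (hneg : NonposHSC h) {k : ℝ}
    (hk : 0 < k) : ∃ C : ℝ, 0 < C ∧
    ∀ g : Chart n X → Cm n → Matrix (Fin n) (Fin n) ℂ, IsKahler g →
    ∀ σ : X → ℝ, Continuous σ → (∀ x, 0 ≤ σ x) → (∀ x, σ x ≤ 1) →
      RicGeF w (fun x => k * (1 - σ x)) g →
    ∀ Ct : ℝ, 1 ≤ Ct → (∀ x, trX g w x ≤ Ct) →
      (Ct ^ 2) ^ (n - 1) * IX g σ ≤ (intX fun e z => (g e z).det.re) →
    ∀ B : X → ℝ, SmoothFn (n := n) B → (∀ x, 0 < B x) → (∀ x, B x ≤ 1) →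
      IX g (fun x => ((B x)⁻¹) ^ (n - 2) * (trX g w x) ^ 2) ≤
        C * (IX g (fun x => ((B x)⁻¹) ^ (n - 1)) +
          intX (fun e z => ((B (e.symm z))⁻¹) ^ n * sqE g (Hf g B) e z * (g e z).det.re)) := by
  obtain ⟨Cw, hCw0, hCw⟩ := exists_comparison hh hw.toIsHermitian
  obtain ⟨Ch, hCh0, hCh⟩ := exists_comparison hw.toIsHermitian hh
  have hn1 : (1 : ℝ) ≤ n := by exact_mod_cast (show 1 ≤ n by omega)
  have hn2 : (0 : ℝ) ≤ (n : ℝ) - 2 := by
    have : (2 : ℝ) ≤ n := by exact_mod_cast hn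
    linarith
  set kk : ℝ := 2 * k / (Ch * n) with hkk
  have hkk0 : 0 < kk := by positivity
  set K : ℝ := (n : ℝ) - 2 with hK
  set δ : ℝ := kk / 4 with hδ
  have hδ0 : 0 < δ := by positivity
  obtain ⟨Cδ, hCδ, hcore⟩ := N5.core hn hw hh hδ0
  set c : ℝ := 2 * kk * Ch ^ 2 with hc
  have hc0 : 0 < c := by positivity
  refine ⟨Cw ^ 2 * (4 / kk * (2 * δ⁻¹ + c) + 4 / kk * Cδ) + 1, by positivity, ?_⟩
  intro g hg σ hσc hσ0 hσ1 hric Ct hCt hTCt hvol B hB hB0 hB1
  have hgH := hg.toIsHermitian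
  set ρ : X → ℝ := fun x => ((B x)⁻¹) ^ (n - 2) with hρdef
  have hρ : SmoothFn (n := n) ρ := sm_inv_pow hB hB0 (n - 2)
  have hρpos : ∀ x, 0 < ρ x := fun x => by
    have := hB0 x
    positivity
  have hρ0 : ∀ x, 0 ≤ ρ x := fun x => (hρpos x).le
  have hρc : Continuous ρ := INT.SmoothFn.continuous hρ
  have hT : SmoothFn (n := n) (trX g h) := smoothFn_trX hgH hh.isForm hh.smooth
  have hTw : SmoothFn (n := n) (trX g w) := smoothFn_trX hgH hw.isForm hw.smooth
  have hTc := INT.SmoothFn.continuous hT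
  have hTwc := INT.SmoothFn.continuous hTw
  have hρT : Continuous fun x => ρ x * trX g h x ^ 2 := hρc.mul (hTc.pow 2)
  have hGc : Continuous fun x => ((B x)⁻¹) ^ (n - 1) :=
    INT.SmoothFn.continuous (sm_inv_pow hB hB0 (n - 1))
  have hT0 : ∀ x, 0 ≤ trX g h x := fun x => by
    have hx := at_chartAt (n := n) x
    rw [trX_eq hgH hh.isForm hx]
    exact tr_nonneg (hgH.posDef _ x hx) (hh.posDef _ x hx).posSemidef
  have hTh : ∀ x, trX g h x ≤ Ch * trX g w x := fun x => by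
    have hx := at_chartAt (n := n) x
    set e := chartAt (Cm n) x
    have eT : trX g h x = tr (g e (e x)) (h e (e x)) := trX_eq hgH hh.isForm hx
    have eTw : trX g w x = tr (g e (e x)) (w e (e x)) := trX_eq hgH hw.isForm hx
    rw [eT, eTw]
    have := tr_nonneg (hgH.posDef _ x hx) (hCh _ x hx)
    rw [DD.tr_sub, DD.tr_smul] at this
    linarith
  have hQ0 : ∀ x, 0 ≤ Qf g B x := fun x =>
    div_nonneg (gradX_self_nonneg hgH.posDef B x) (hB0 x).le
  set HH := intX (fun (e : Chart n X) z => ((B (e.symm z))⁻¹) ^ n * sqE g (Hf g B) e z *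
    (g e z).det.re) with hHH
  set J := IX g (fun x => ((B x)⁻¹) ^ (n - 1) * (Qf g B x * trX g h x)) with hJ
  set I0 := IX g ρ with hI0
  set I1 := IX g (fun x => ρ x * trX g h x) with hI1
  set I2 := IX g (fun x => ρ x * trX g h x ^ 2) with hI2
  set Is := IX g (fun x => σ x * (ρ x * trX g h x ^ 2)) with hIs
  set G0 := IX g (fun x => ((B x)⁻¹) ^ (n - 1)) with hG0
  have j0 : 0 ≤ J := IX_nonneg hgH fun x => by
    have h1 := hB0 x
    have h2 := hQ0 x
    have h3 := hT0 x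
    positivity
  have i0 : 0 ≤ I0 := IX_nonneg hgH hρ0
  have n2 : 0 ≤ HH := INT.intX_nonneg fun e x hx => by
    have hG := hgH.posDef e x hx
    have hdet : 0 < (g e (e x)).det.re := (Complex.lt_def.1 hG.det_pos).1
    have hHfH : (Hf g B e (e x)).IsHermitian := by
      unfold Hf
      refine Matrix.IsHermitian.sub (cHess_isHermitian ((hB e x hx).of_le (by norm_cast))) ?_
      exact hG.isHermitian.smul (by simp only [IsSelfAdjoint, Complex.star_def, Complex.conj_ofReal])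
    have h1 : 0 ≤ sqE g (Hf g B) e (e x) := pr_self_nonneg hG hHfH
    have h2 := hB0 (e.symm (e x))
    positivity
  -- the bad set
  have hV : (intX fun e z => (g e z).det.re) ≤ G0 := by
    have h1 : (intX fun e z => (g e z).det.re) = IX g (fun _ => (1 : ℝ)) := (IX_one g).symm
    rw [h1]
    refine IX_mono hgH continuous_const hGc fun x => ?_
    exact one_le_pow₀ ((one_le_inv₀ (hB0 x)).2 (hB1 x))
  have kbad : Is ≤ 2 * Ch ^ 2 * G0 := by
    have hC2 : 1 ≤ Ct ^ 2 := one_le_pow₀ hCt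
    have s1 : Is ≤ IX g (fun x => Ch ^ 2 * (((B x)⁻¹) ^ (n - 1) + (Ct ^ 2) ^ (n - 1) * σ x)) := by
      refine IX_mono hgH (hσc.mul hρT) (continuous_const.mul (hGc.add (continuous_const.mul hσc)))
        fun x => ?_
      have hy := young_bad hn hC2 (hσ0 x) (hσ1 x) (inv_pos.2 (hB0 x))
      have h1 : trX g h x ^ 2 ≤ Ch ^ 2 * Ct ^ 2 := by
        rw [← mul_pow]
        exact pow_le_pow_left₀ (hT0 x) ((hTh x).trans
          (mul_le_mul_of_nonneg_left (hTCt x) hCh0.le)) 2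
      have h2 : 0 ≤ σ x * ρ x := mul_nonneg (hσ0 x) (hρ0 x)
      have h3 := mul_le_mul_of_nonneg_left h1 h2
      have h4 : σ x * ρ x * (Ch ^ 2 * Ct ^ 2) = Ch ^ 2 * (Ct ^ 2 * σ x * ρ x) := by ring
      rw [h4] at h3
      have h5 := mul_le_mul_of_nonneg_left hy (sq_nonneg Ch)
      calc σ x * (ρ x * trX g h x ^ 2) = σ x * ρ x * trX g h x ^ 2 := by ring
        _ ≤ Ch ^ 2 * (Ct ^ 2 * σ x * ρ x) := h3
        _ ≤ _ := h5
    have s2 : IX g (fun x => Ch ^ 2 * (((B x)⁻¹) ^ (n - 1) + (Ct ^ 2) ^ (n - 1) * σ x)) =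
        Ch ^ 2 * (G0 + (Ct ^ 2) ^ (n - 1) * IX g σ) := by
      have cS : Continuous fun x => (Ct ^ 2) ^ (n - 1) * σ x := continuous_const.mul hσc
      rw [IX_const_mul, IX_add hgH hGc cS, IX_const_mul]
    rw [s2] at s1
    have s3 : (Ct ^ 2) ^ (n - 1) * IX g σ ≤ G0 := hvol.trans hV
    have s4 : Ch ^ 2 * (G0 + (Ct ^ 2) ^ (n - 1) * IX g σ) ≤ Ch ^ 2 * (G0 + G0) :=
      mul_le_mul_of_nonneg_left (by linarith) (sq_nonneg _)
    linarith
  -- the weighted inequality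
  have k1 : kk * I2 - 2 * I1 ≤ intX (Qd g h ρ) + c * G0 := by
    have hfc : Continuous fun x => k * (1 - σ x) := continuous_const.mul (continuous_const.sub hσc)
    have h1 := wiF (n := n) (by omega) hg hh hneg hfc
      (fun x => mul_nonneg hk.le (sub_nonneg.2 (hσ1 x))) hCh0 hCh hric hρ hρ0
    have s2 : (fun x => ρ x * (2 * (k * (1 - σ x)) / (Ch * n) * trX g h x ^ 2 - 2 * trX g h x)) =
        fun x => (kk * (ρ x * trX g h x ^ 2) + (-2) * (ρ x * trX g h x)) +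
          (-kk) * (σ x * (ρ x * trX g h x ^ 2)) := by
      funext x; rw [hkk]; ring
    have cA : Continuous fun x => kk * (ρ x * trX g h x ^ 2) := continuous_const.mul hρT
    have cB : Continuous fun x => (-2) * (ρ x * trX g h x) :=
      continuous_const.mul (hρc.mul hTc)
    have cC : Continuous fun x => (-kk) * (σ x * (ρ x * trX g h x ^ 2)) :=
      continuous_const.mul (hσc.mul hρT)
    have cAB : Continuous fun x => kk * (ρ x * trX g h x ^ 2) + (-2) * (ρ x * trX g h x) :=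
      cA.add cB
    have q1 := IX_add hgH cAB cC
    have q2 := IX_add hgH cA cB
    have q3 : IX g (fun x => kk * (ρ x * trX g h x ^ 2)) = kk * I2 := IX_const_mul _
    have q4 : IX g (fun x => (-2) * (ρ x * trX g h x)) = (-2) * I1 := IX_const_mul _
    have q5 : IX g (fun x => (-kk) * (σ x * (ρ x * trX g h x ^ 2))) = (-kk) * Is :=
      IX_const_mul _
    rw [s2] at h1
    have q6 : kk * I2 + (-2) * I1 + (-kk) * Is ≤ intX (Qd g h ρ) := by
      rw [← q3, ← q4, ← q5, ← q2, ← q1]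
      exact h1
    have h2 := mul_le_mul_of_nonneg_left kbad hkk0.le
    have h3 : kk * (2 * Ch ^ 2 * G0) = c * G0 := by rw [hc]; ring
    rw [h3] at h2
    linarith
  -- core
  have k2 := hcore g hg B hB hB0
  -- the first moment
  have k3 : I1 ≤ δ * I2 + δ⁻¹ * I0 := by
    have s1 := IX_add hgH (f := fun x => δ * (ρ x * trX g h x ^ 2)) (f' := fun x => δ⁻¹ * ρ x)
      (continuous_const.mul hρT) (continuous_const.mul hρc)
    rw [hI2, hI0, ← IX_const_mul, ← IX_const_mul, ← s1]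
    refine IX_mono hgH (hρc.mul hTc) ((continuous_const.mul hρT).add (continuous_const.mul hρc))
      fun x => ?_
    exact N5.alg2 hδ0 (hρ0 x)
  have i4 : I0 ≤ G0 := by
    refine IX_mono hgH hρc hGc fun x => ?_
    exact pow_le_pow_right₀ ((one_le_inv₀ (hB0 x)).2 (hB1 x)) (by omega)
  have k8 : I2 ≤ 4 / kk * (2 * δ⁻¹ + c) * G0 + 4 / kk * Cδ * HH :=
    arithF hkk0 hδ hn2 j0 k1 k2 k3 i4
  have i5 : IX g (fun x => ρ x * trX g w x ^ 2) ≤ Cw ^ 2 * I2 := by
    rw [hI2, ← IX_const_mul]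
    refine IX_mono hgH (hρc.mul (hTwc.pow 2)) (continuous_const.mul hρT) fun x => ?_
    have hx := at_chartAt (n := n) x
    set e := chartAt (Cm n) x
    have hG := hgH.posDef e x hx
    have eT : trX g h x = tr (g e (e x)) (h e (e x)) := trX_eq hgH hh.isForm hx
    have eTw : trX g w x = tr (g e (e x)) (w e (e x)) := trX_eq hgH hw.isForm hx
    have h1 : 0 ≤ tr (g e (e x)) (w e (e x)) := tr_nonneg hG (hw.posDef e x hx).posSemidef
    have h2 : tr (g e (e x)) (w e (e x)) ≤ Cw * tr (g e (e x)) (h e (e x)) := by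
      have := tr_nonneg hG (hCw e x hx)
      rw [DD.tr_sub, DD.tr_smul] at this
      linarith
    rw [eT, eTw]
    have h3 : tr (g e (e x)) (w e (e x)) ^ 2 ≤ Cw ^ 2 * tr (g e (e x)) (h e (e x)) ^ 2 := by
      rw [← mul_pow]
      exact pow_le_pow_left₀ h1 h2 2
    have := mul_le_mul_of_nonneg_left h3 (hρ0 x)
    linarith
  exact N5.arith2 (by positivity) (by positivity) (by positivity) (i0.trans i4) n2 le_rfl k8 i5

end Vale.Agent.P272.K.AMP.BIG
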