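import Vale.Agent.P272.K.AMP.BIG.Defs
import Vale.Agent.P272.K.AMP.BIG.H420.DDF

/-!
# AMP-BIG, block DD2 (RUN 2): the inequality (6.1) with a constant independent of `t`
-/

open scoped Manifold ContDiff ComplexOrder Topology
open Complex Set Filter MeasureTheory

set_option linter.all false

noncomputable section

namespace Vale.Agent.P272.K.AMP.BIG

open INT (IsDensity intX part Part PP)
open DD
open Main

variable {n : ℕ} {X : Type} [TopologicalSpace X] [ChartedSpace (Cm n) X]
  [IsManifold 𝓘(ℂ, Cm n) ω X]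
  {w g : Chart n X → Cm n → Matrix (Fin n) (Fin n) ℂ} {σ : X → ℝ} {t : ℝ}

/-- the form `χ` is a Hermitian metric -/
theorem Adm.isHermitian (hw : IsHermitian w) (hA : Adm w t σ) : IsHermitian (chiF w t σ) where
  smooth e x hx i j := by
    have h1 : ContDiffAt ℝ ∞ (fun z => cHess (fun y => Real.log (w e y).det.re) z i j) (e x) :=
      contDiffAt_cHess ((isCanonical_logdet hw).smooth e x hx) (le_of_eq rfl) i j
    have h2 : ContDiffAt ℝ ∞ (fun z => cHess (fun y => σ (e.symm y)) z i j) (e x) :=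
      contDiffAt_cHess (hA.smooth e x hx) (le_of_eq rfl) i j
    exact (h1.add (contDiffAt_const.mul (hw.smooth e x hx i j))).add h2
  posDef := hA.pos
  change := by
    have h1 : IsForm (fun (e : Chart n X) z => cHess (fun y => Real.log (w e y).det.re) z) :=
      isForm_canonical (φ := fun e z => Real.log (w e z).det.re)
        (fun e x hx => ((isCanonical_logdet hw).smooth e x hx).of_le
          (by exact WithTop.coe_le_coe.2 le_top)) (isCanonical_logdet hw).change
    have h2 : IsForm (hess (n := n) σ) := isForm_hess hA.smooth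
    exact (h1.add (hw.isForm.smul (t : ℂ))).add h2

lemma trX_chi_pos (hn : 1 ≤ n) (hw : IsHermitian w) (hA : Adm w t σ) (x : X) :
    0 < trX (chiF w t σ) w x := by
  haveI : NeZero n := ⟨by omega⟩
  exact S7.trX_pos (hA.isHermitian hw) hw x

lemma mX_pos (hn : 1 ≤ n) (hw : IsHermitian w) (hA : Adm w t σ) (x : X) :
    0 < mX w (chiF w t σ) x := inv_pos.2 (trX_chi_pos hn hw hA x)

lemma mX_continuous (hn : 1 ≤ n) (hw : IsHermitian w) (hA : Adm w t σ) :
    Continuous (mX w (chiF w t σ)) := by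
  have h1 := INT.SmoothFn.continuous (S7.smoothFn_trX_w (hA.isHermitian hw) hw)
  exact h1.inv₀ fun x => (trX_chi_pos hn hw hA x).ne'

/-- `χ ≥ m_χ w` -/
lemma chi_ge (hn : 1 ≤ n) (hw : IsHermitian w) (hA : Adm w t σ) {e : Chart n X} {x : X}
    (hx : At e x) :
    (chiF w t σ e (e x) - ((mX w (chiF w t σ) x : ℝ) : ℂ) • w e (e x)).PosSemidef := by
  have hC := hA.isHermitian hw
  have h1 := hA.pos e x hx
  have h2 := C2.trace_smul_sub_posSemidef h1 (hw.posDef e x hx).posSemidef
  rw [← C2.trace_re_eq h1 (hw.posDef e x hx)] at h2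
  have eT : trX (chiF w t σ) w x = ((chiF w t σ e (e x))⁻¹ * w e (e x)).trace.re :=
    trX_eq hC hw.isForm hx
  rw [← eT] at h2
  have hpos := trX_chi_pos hn hw hA x
  have h3 := posSemidef_ofReal_smul h2 (inv_pos.2 hpos).le
  rw [smul_sub, smul_smul, ← Complex.ofReal_mul, inv_mul_cancel₀ hpos.ne'] at h3
  simpa [mX] using h3

/-- `Ric(g) ≥ -g + b (δ - z) w`, `z = max (δ - m_χ) 0` -/
theorem ricGeF_of_tke (hn : 1 ≤ n) (hw : IsHermitian w) (hA : Adm w t σ) {b δ : ℝ} (ht : 0 ≤ t)
    (hb : 0 ≤ b) (hT : IsTKE w t b σ g) :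
    RicGeF w (fun x => b * (δ - max (δ - mX w (chiF w t σ) x) 0)) g := by
  intro e x hx
  have h1 := hT e x hx
  set m := mX w (chiF w t σ) x with hm
  have h2 : -cHess (fun z => Real.log (g e z).det.re) (e x) + g e (e x) =
      (t : ℂ) • w e (e x) + (b : ℂ) • chiF w t σ e (e x) := by
    rw [h1]
    abel
  have hwx := (hw.posDef e x hx).posSemidef
  have h3 := posSemidef_ofReal_smul hwx ht
  have h4 := posSemidef_ofReal_smul (chi_ge hn hw hA hx) hb
  have hc : 0 ≤ b * (m - (δ - max (δ - m) 0)) := by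
    refine mul_nonneg hb ?_
    have := le_max_left (δ - m) 0
    linarith
  have h5 := posSemidef_ofReal_smul hwx hc
  have h6 := (h3.add h4).add h5
  show (-cHess (fun z => Real.log (g e z).det.re) (e x) + g e (e x) -
    ((b * (δ - max (δ - m) 0) : ℝ) : ℂ) • w e (e x)).PosSemidef
  rw [h2]
  convert h6 using 1
  rw [← hm, smul_sub, smul_smul, ← Complex.ofReal_mul]
  have h7 : ((b * (m - (δ - max (δ - m) 0)) : ℝ) : ℂ) =
      ((b * m : ℝ) : ℂ) - ((b * (δ - max (δ - m) 0) : ℝ) : ℂ) := by push_cast; ring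
  rw [h7, sub_smul]
  abel

variable [T2Space X] [CompactSpace X]

/-- the volume of the bad set -/
theorem IX_bad_le {b Λ K η : ℝ} {z : X → ℝ} (hw : IsHermitian w) (hg : IsHermitian g)
    (hσ : SmoothFn (n := n) σ) (hz : Continuous z) (hz0 : ∀ x, 0 ≤ z x) (hz1 : ∀ x, z x ≤ 1)
    (hpot : ∀ e x, At e x →
      Real.log (g e (e x)).det.re - Real.log (w e (e x)).det.re + b * σ x ≤ Λ)
    (hK : IX w (fun x => Real.exp (-(2 * b * σ x))) ≤ K) (hη : 0 < η) :
    IX g z ≤ Real.exp Λ * (η * K + η⁻¹ * IX w z) := by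
  have cσ := INT.SmoothFn.continuous hσ
  have hp : ∀ x, potX w g x ≤ Λ - b * σ x := fun x => by
    have h1 := hpot _ x (at_chartAt (n := n) x)
    have h2 : potX w g x + b * σ x ≤ Λ := h1
    linarith
  rw [IX_eq_pot hw hg]
  have c1 : Continuous fun x => z x * Real.exp (potX w g x) := by
    have := INT.SmoothFn.continuous (smoothFn_pot hw hg)
    fun_prop
  have c2 : Continuous fun x => Real.exp (-(2 * b * σ x)) := by fun_prop
  have c3 : Continuous fun x => η * Real.exp (-(2 * b * σ x)) := by fun_prop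
  have c4 : Continuous fun x => η⁻¹ * z x := by fun_prop
  have c5 : Continuous fun x => Real.exp Λ * (η * Real.exp (-(2 * b * σ x)) + η⁻¹ * z x) := by
    fun_prop
  have h1 : IX w (fun x => z x * Real.exp (potX w g x)) ≤
      IX w (fun x => Real.exp Λ * (η * Real.exp (-(2 * b * σ x)) + η⁻¹ * z x)) := by
    refine IX_mono hw c1 c5 fun x => ?_
    have h2 : Real.exp (potX w g x) ≤ Real.exp Λ * Real.exp (-(b * σ x)) := by
      rw [← Real.exp_add]
      exact Real.exp_le_exp.2 (by linarith [hp x])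
    have h3 : Real.exp (-(2 * b * σ x)) = Real.exp (-(b * σ x)) ^ 2 := by
      rw [← Real.exp_nat_mul]; congr 1; push_cast; ring
    set E := Real.exp (-(b * σ x)) with hE
    have hE0 : 0 < E := Real.exp_pos _
    have h4 : z x * E ≤ η * E ^ 2 + η⁻¹ * z x := by
      have h5 : z x * E ≤ η * E ^ 2 + η⁻¹ * z x ^ 2 := by
        have h6 : η * E ^ 2 + η⁻¹ * z x ^ 2 - z x * E =
            η⁻¹ * ((η * E - z x / 2) ^ 2 + 3 / 4 * z x ^ 2) := by field_simp; ring
        have h7 : 0 ≤ η⁻¹ * ((η * E - z x / 2) ^ 2 + 3 / 4 * z x ^ 2) := by positivity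
        linarith
      have h8 : z x ^ 2 ≤ z x := by
        have := mul_le_mul_of_nonneg_left (hz1 x) (hz0 x)
        linarith [sq (z x)]
      have h9 := mul_le_mul_of_nonneg_left h8 (inv_pos.2 hη).le
      linarith
    rw [h3]
    calc z x * Real.exp (potX w g x) ≤ z x * (Real.exp Λ * E) :=
          mul_le_mul_of_nonneg_left h2 (hz0 x)
      _ = Real.exp Λ * (z x * E) := by ring
      _ ≤ _ := mul_le_mul_of_nonneg_left h4 (Real.exp_pos _).le
  refine h1.trans ?_
  rw [IX_const_mul, IX_add hw c3 c4, IX_const_mul, IX_const_mul]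
  refine mul_le_mul_of_nonneg_left ?_ (Real.exp_pos _).le
  have := mul_le_mul_of_nonneg_left hK hη.le
  linarith

/-- **Block DD2** -/
theorem dd2Block (hn : 2 ≤ n) : DD2Block n X := by
  intro w h hw hh hneg δ b Λ v0 V1 K hδ hb hb1 hΛ hv0
  have hk : 0 < b * δ := mul_pos hb hδ
  obtain ⟨C, hC, H⟩ := ddMainF (X := X) hn hw hh hneg hk
  refine ⟨C, hC, fun Ct => ?_⟩
  set M : ℝ := ((max Ct 1) ^ 2) ^ (n - 1) with hM
  have hM0 : 0 < M := by
    have : (0 : ℝ) < max Ct 1 := lt_max_of_lt_right one_pos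
    positivity
  set K' : ℝ := max K 1 with hK'
  have hK'0 : 0 < K' := lt_max_of_lt_right one_pos
  set c : ℝ := v0 / (M * Real.exp Λ) with hc
  have hc0 : 0 < c := by positivity
  set η : ℝ := c / (2 * K') with hη
  have hη0 : 0 < η := by positivity
  refine ⟨η * c / 2 * δ, by positivity, ?_⟩
  intro t σ g ht ht1 hA hctrl hT hCt hKK hε
  intro B hB hB0 hB1
  have hwH := hw.toIsHermitian
  have hgK := hctrl.kahler
  have hgH := hgK.toIsHermitian
  have hn1 : 1 ≤ n := by omega
  set m := mX w (chiF w t σ) with hm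
  have hmc : Continuous m := mX_continuous hn1 hwH hA
  have hmp : ∀ x, 0 < m x := mX_pos hn1 hwH hA
  set s : X → ℝ := fun x => max (δ - m x) 0 / δ with hs
  have hsc : Continuous s := ((continuous_const.sub hmc).max continuous_const).div_const _
  have hs0 : ∀ x, 0 ≤ s x := fun x => div_nonneg (le_max_right _ _) hδ.le
  have hs1 : ∀ x, s x ≤ 1 := fun x => by
    rw [hs]
    show max (δ - m x) 0 / δ ≤ 1
    rw [div_le_one hδ]
    exact max_le (by linarith [hmp x]) hδ.le
  have hric : RicGeF w (fun x => b * δ * (1 - s x)) g := by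
    have h1 := ricGeF_of_tke (δ := δ) hn1 hwH hA ht.le hb.le hT
    have h2 : (fun x => b * δ * (1 - s x)) = fun x => b * (δ - max (δ - m x) 0) := by
      funext x
      rw [hs]
      field_simp
    rw [h2]
    exact h1
  have hbad := IX_bad_le (K := K') hwH hgH hA.smooth hsc hs0 hs1 hctrl.pot
    (hKK.trans (le_max_left _ _)) hη0
  have hsw : IX w s ≤ η * c / 2 := by
    have h1 : s = fun x => δ⁻¹ * max (δ - m x) 0 := by
      funext x; rw [hs]; ring
    rw [h1, IX_const_mul]
    have h2 := mul_le_mul_of_nonneg_left hε (inv_pos.2 hδ).le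
    have h3 : δ⁻¹ * (η * c / 2 * δ) = η * c / 2 := by field_simp
    rw [h3] at h2
    exact h2
  have hvol : M * IX g s ≤ (intX fun e z => (g e z).det.re) := by
    refine le_trans ?_ hctrl.vol_ge
    have h1 : η * K' + η⁻¹ * IX w s ≤ c := by
      have h2 := mul_le_mul_of_nonneg_left hsw (inv_pos.2 hη0).le
      have h3 : η⁻¹ * (η * c / 2) = c / 2 := by field_simp
      have h4 : η * K' = c / 2 := by rw [hη]; field_simp
      linarith
    have h2 := mul_le_mul_of_nonneg_left (hbad.trans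
      (mul_le_mul_of_nonneg_left h1 (Real.exp_pos Λ).le)) hM0.le
    refine h2.trans (le_of_eq ?_)
    rw [hc]
    field_simp
  exact H g hgK s hsc hs0 hs1 hric (max Ct 1) (le_max_right _ _)
    (fun x => (hCt x).trans (le_max_left _ _)) hvol B hB hB0 hB1

/-- **Block DD1** (helper821's `ddMainS_of_nonpos`) -/
theorem dd1Block (hn : 2 ≤ n) : DD1Block n X :=
  fun _ _ hw hh hneg _ hs => NEF.ddMainS_of_nonpos hn hw hh hneg hs

end Vale.Agent.P272.K.AMP.BIG
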