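import Vale.Agent.P272.K.AMP.NEF.DDOf

/-!
# AMP-BIG, block DDB: the weighted inequality with a variable twist

If `Ric(g) ≥ -g + f w`, `f ≥ 0` a function, and `HSC(h) ≤ 0`:
`∫ ρ (2 f T² / (C_h n) - 2T) dv_g ≤ ∫ (T Δρ + <h, i∂∂̄ρ>) dv_g`, `T = tr_g h`, `h ≤ C_h w`.
-/

open scoped Manifold ContDiff ComplexOrder Topology
open Complex Set Filter MeasureTheory

set_option linter.all false

noncomputable section

namespace Vale.Agent.P272.K.AMP.BIG

open INT (IsDensity intX part Part)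
open T4 (Rl2 Eg Pq Rq Tr dt)
open DD
open Main

variable {n : ℕ} {X : Type} [TopologicalSpace X] [ChartedSpace (Cm n) X]
  {w g h : Chart n X → Cm n → Matrix (Fin n) (Fin n) ℂ}

/-- `Ric(g) ≥ -g + f w` for a function `f` -/
def RicGeF (w : Chart n X → Cm n → Matrix (Fin n) (Fin n) ℂ) (f : X → ℝ)
    (g : Chart n X → Cm n → Matrix (Fin n) (Fin n) ℂ) : Prop :=
  ∀ e x, At e x → (-cHess (fun z => Real.log (g e z).det.re) (e x) + g e (e x) -
    (f x : ℂ) • w e (e x)).PosSemidef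

variable [IsManifold 𝓘(ℂ, Cm n) ω X] [T2Space X] [CompactSpace X]

/-- **the weighted inequality, variable twist** -/
theorem wiF (hn : 1 ≤ n) (hg : IsKahler g) (hh : IsHermitian h) (hneg : NonposHSC h)
    {f : X → ℝ} {C : ℝ} (hfc : Continuous f) (hf0 : ∀ x, 0 ≤ f x) (hC0 : 0 < C)
    (hC : ∀ e x, At e x → ((C : ℂ) • w e (e x) - h e (e x)).PosSemidef) (hric : RicGeF w f g)
    {ρ : X → ℝ} (hρ : SmoothFn (n := n) ρ) (hρ0 : ∀ x, 0 ≤ ρ x) :
    IX g (fun x => ρ x * (2 * f x / (C * n) * trX g h x ^ 2 - 2 * trX g h x)) ≤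
      intX (Qd g h ρ) := by
  have hgH := hg.toIsHermitian
  have h1 := NF.intX_weak_eq_weighted hg hh hρ
  rw [← h1]
  have hρc : Continuous ρ := INT.SmoothFn.continuous hρ
  have hT : SmoothFn (n := n) (trX g h) := smoothFn_trX hgH hh.isForm hh.smooth
  have hTc := INT.SmoothFn.continuous hT
  have hc : Continuous fun x => ρ x * (2 * f x / (C * n) * trX g h x ^ 2 - 2 * trX g h x) := by
    fun_prop
  have k0 : T4.ContD (X := X) (n := n) fun e z => ρ (e.symm z) := NF.contD_fn hρ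
  have kR : T4.ContD (X := X) fun e z => Rl2 (g e) (h e) z := T4.contD_Rl2 hgH hh
  have kd : T4.ContD (X := X) (dt g) := T4.contD_dt hgH
  obtain ⟨χ, hχ⟩ := T4.exists_wt
  have hc0 : 0 < T4.c0 n χ := T4.c0_pos n hχ
  have hPR : T4.CTFun fun e z w => Pq g h e z w + Rq h e z w :=
    ((T4.Pq_smTFun hgH hh).add (T4.Rq_smTFun hh)).ctfun
  have kE : T4.ContD (X := X) fun e z =>
      Eg χ g (fun e z w => Pq g h e z w + Rq h e z w) e z * dt g e z :=
    (T4.Eg_isDensity hχ hgH hPR).cont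
  have kQ : T4.ContD (X := X) fun e z => (T4.c0 n χ)⁻¹ *
      (Eg χ g (fun e z w => Pq g h e z w + Rq h e z w) e z * dt g e z) :=
    kE.const_mul _
  have kAll : T4.ContD (X := X) fun e z => ρ (e.symm z) * ((T4.c0 n χ)⁻¹ *
      (Eg χ g (fun e z w => Pq g h e z w + Rq h e z w) e z * dt g e z) +
        2 * (Rl2 (g e) (h e) z * dt g e z)) := k0.mul (kQ.add ((kR.mul kd).const_mul 2))
  have h2 : intX (fun e z => ρ (e.symm z) * ((P1.Q2 (g e) (h e) z + 2 * Rl2 (g e) (h e) z) *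
      (g e z).det.re)) = intX (fun e z => ρ (e.symm z) * ((T4.c0 n χ)⁻¹ *
      (Eg χ g (fun e z w => Pq g h e z w + Rq h e z w) e z * dt g e z) +
        2 * (Rl2 (g e) (h e) z * dt g e z))) := by
    refine INT.intX_congr fun e x hx => ?_
    rw [T4.Eg_Q2 hχ (T4.mom4_c0 hχ) hgH hh hx]
    unfold dt
    field_simp
  rw [h2]
  refine T4.intX_mono' ((isDensity_IX hgH hc).cont) kAll fun e x hx => ?_
  have hG := hgH.posDef e x hx
  have hdet : 0 < (g e (e x)).det.re := (INT.posDef_det_re hG).1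
  have hxx : e.symm (e x) = x := e.left_inv hx.2
  have eT : trX g h x = tr (g e (e x)) (h e (e x)) := trX_eq hgH hh.isForm hx
  have hQ := NEF.Q2_nonneg hgH hh hneg hx
  have hQ2 : (T4.c0 n χ)⁻¹ * (Eg χ g (fun e z w => Pq g h e z w + Rq h e z w) e (e x) *
      dt g e (e x)) = P1.Q2 (g e) (h e) (e x) * (g e (e x)).det.re := by
    rw [T4.Eg_Q2 hχ (T4.mom4_c0 hχ) hgH hh hx]
    unfold dt
    field_simp
  rw [hQ2]
  have hR := NEF.rl2_ge hn hG (hh.posDef e x hx) (hf0 x) hC0 (hC e x hx) (hric e x hx)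
  have hR' : f x / (C * n) * tr (g e (e x)) (h e (e x)) ^ 2 - tr (g e (e x)) (h e (e x)) ≤
      Rl2 (g e) (h e) (e x) := hR
  simp only [hxx]
  rw [eT, mul_assoc]
  refine mul_le_mul_of_nonneg_left ?_ (hρ0 x)
  have e3 : P1.Q2 (g e) (h e) (e x) * (g e (e x)).det.re +
      2 * (Rl2 (g e) (h e) (e x) * dt g e (e x)) =
      (P1.Q2 (g e) (h e) (e x) + 2 * Rl2 (g e) (h e) (e x)) * (g e (e x)).det.re := by
    unfold dt; ring
  rw [e3]
  refine mul_le_mul_of_nonneg_right ?_ hdet.le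
  have e4 : 2 * f x / (C * n) * tr (g e (e x)) (h e (e x)) ^ 2 =
      2 * (f x / (C * n) * tr (g e (e x)) (h e (e x)) ^ 2) := by ring
  linarith

end Vale.Agent.P272.K.AMP.BIG
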